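import Vale.Agent.P078.TypeIII.All

/-!
# The Popa-Vaes so-paving bound for every MASA of every von Neumann algebra

A colouring rule with finitely many random seeds, analysed with a barrier that needs no invariant
functional, paves the part generated by the normalisers; the same seeds pave the orthogonal part.
-/

namespace Vale.Agent.Results.P078.AllMASAs

open Vale.Agent.P078.General Vale.Agent.P078.TypeIII.Regular

universe u

/-- There is an absolute constant `C` such that every MASA of every von Neumann algebra is
`(ε, r)` so-paved for some `r ≤ C / ε ^ 2`. -/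
theorem result :
    ∃ C : ℝ, ∀ (H : Type u) [NormedAddCommGroup H] [InnerProductSpace ℂ H] [CompleteSpace H]
      (M : VonNeumannAlgebra H) (A : StarSubalgebra ℂ (H →L[ℂ] H)),
      IsMASAIn M A → ∀ ε : ℝ, 0 < ε → ε < 1 →
        ∃ r : ℕ, 0 < r ∧ (r : ℝ) ≤ C / ε ^ 2 ∧ AllPavable M A ε r :=
  exists_quadratic_of_ruleGoal (by norm_num : (0 : ℝ) < 405) Vale.Agent.P078.TypeIII.ruleGoal

end Vale.Agent.Results.P078.AllMASAs
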