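import Vale.Agent.P078.Lower

/-!
# Exact so-paving number for diffuse MASAs of B(H)
-/

namespace Vale.Agent.Results.P078.DiffuseBHExact

/-- For every diffuse MASA `A` of `B(H)`, `H` any nonzero complex Hilbert space, every
self-adjoint operator is `(ε, r)` so-pavable over `A` if and only if `ε * r ≥ 1`. -/
theorem result {H : Type*} [NormedAddCommGroup H] [InnerProductSpace ℂ H] [CompleteSpace H]
    [Nontrivial H] (A : StarSubalgebra ℂ (H →L[ℂ] H)) (hA : Vale.Agent.P078.IsMASA A)
    (hd : Vale.Agent.P078.IsDiffuse A) (ε : ℝ) (r : ℕ) :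
    (∀ x : H →L[ℂ] H, IsSelfAdjoint x → Vale.Agent.P078.SoPavable A ε r x) ↔ 1 ≤ ε * r :=
  ⟨fun h => Vale.Agent.P078.one_le_of_soPavable hA hd h,
    fun h x hx => Vale.Agent.P078.soPavable_of_le hA hd x hx h⟩

end Vale.Agent.Results.P078.DiffuseBHExact
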